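import Vale.Agent.P219.CH.Full.Defs
import Vale.Agent.P219.CH.Core.ChordFrame
import Vale.Agent.P219.CH.Core.MinTools

/-!
P219: the inverse exponential map at `y` is tangent to the identity at `y`, and geodesic balls
are close to the balls of `G y`.
-/

namespace Vale.Agent.P219.CH.Full.Density

open Filter Topology Metric
open scoped ContDiff RealInnerProductSpace

noncomputable section

variable {n : ℕ} {G : Coeff n} (Γ : Geo G)

theorem logm_tangent (y : E n) :
    Γ.logm y y = 0 ∧ HasFDerivAt (Γ.logm y) (ContinuousLinearMap.id ℝ (E n)) y := by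
  set ex : E n → E n := fun v => (Γ.flow 1 (y, v)).1 with hex
  have hexc : ContDiff ℝ 1 ex :=
    contDiff_fst.comp (Γ.flow_c1.comp (contDiff_const.prodMk (contDiff_const.prodMk contDiff_id)))
  have hlog : ∀ v, Γ.logm y (ex v) = v := Γ.logm_exp y
  have hsc : ∀ (c : ℝ) v, ex (c • v) = (Γ.flow c (y, v)).1 := fun c v => by
    simp [hex, Γ.flow_scale c 1 y v]
  have h0 : ex 0 = y := by
    have := hsc 0 0
    rw [zero_smul, Γ.flow_zero] at this
    exact this
  have hl0 : Γ.logm y y = 0 := by rw [← h0]; rw [h0]; simpa [h0] using hlog 0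
  refine ⟨hl0, ?_⟩
  have hd : HasFDerivAt ex (ContinuousLinearMap.id ℝ (E n)) 0 := by
    have hL := (hexc.differentiable one_ne_zero 0).hasFDerivAt
    have e : fderiv ℝ ex 0 = ContinuousLinearMap.id ℝ (E n) := by
      refine ContinuousLinearMap.ext fun v => ?_
      have h1 : HasDerivAt (fun t : ℝ => t • v) v 0 := by
        simpa using (hasDerivAt_id (0 : ℝ)).smul_const v
      have h2 : HasDerivAt (fun t : ℝ => ex (t • v)) (fderiv ℝ ex 0 v) 0 :=
        hL.comp_hasDerivAt_of_eq (0 : ℝ) h1 (by simp)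
      obtain ⟨hgeo, hvel⟩ := Γ.flow_geodesic (y, v)
      have h3 : HasDerivAt (fun t : ℝ => ex (t • v)) v 0 := by
        simp only [hsc]
        have := (hgeo 0).1
        rwa [hvel 0, Γ.flow_zero] at this
      exact h2.unique h3
    rwa [e] at hL
  have hlc : ContDiff ℝ 1 (Γ.logm y) :=
    Γ.logm_c1.comp (contDiff_const.prodMk contDiff_id)
  have hM := (hlc.differentiable one_ne_zero y).hasFDerivAt
  have hc : HasFDerivAt (fun v => Γ.logm y (ex v))
      ((fderiv ℝ (Γ.logm y) y).comp (ContinuousLinearMap.id ℝ (E n))) 0 :=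
    HasFDerivAt.comp (0 : E n) (by rwa [h0]) hd
  simp only [hlog] at hc
  have e2 := hc.unique (hasFDerivAt_id (0 : E n))
  rw [ContinuousLinearMap.comp_id] at e2
  rwa [e2] at hM

/-- Near `y` the distance is the norm of `S (z - y)` up to a factor close to one. -/
theorem dist_close {y : E n} {S : E n ≃L[ℝ] E n} (hS : ∀ u, gnorm G y u = ‖S u‖) {δ : ℝ}
    (hδ : 0 < δ) :
    ∀ᶠ z in 𝓝 y, Γ.dist y z ≤ (1 + δ) * ‖S (z - y)‖ := by
  obtain ⟨h0, hd⟩ := logm_tangent Γ y
  set a := ‖(S : E n →L[ℝ] E n)‖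
  set b := ‖(S.symm : E n →L[ℝ] E n)‖
  have hk : 0 < δ / (a * b + 1) := by positivity
  have h := hd.isLittleO.def hk
  filter_upwards [h] with z hz
  rw [h0, sub_zero, ContinuousLinearMap.id_apply] at hz
  show gnorm G y (Γ.logm y z) ≤ _
  rw [hS]
  have e : Γ.logm y z = (z - y) + (Γ.logm y z - (z - y)) := by abel
  rw [e, map_add]
  refine (norm_add_le _ _).trans ?_
  have h1 : ‖S (Γ.logm y z - (z - y))‖ ≤ a * (δ / (a * b + 1) * ‖z - y‖) :=
    ((S : E n →L[ℝ] E n).le_opNorm _).trans (mul_le_mul_of_nonneg_left hz (norm_nonneg _))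
  have h2 : ‖z - y‖ ≤ b * ‖S (z - y)‖ := by
    simpa using (S.symm : E n →L[ℝ] E n).le_opNorm (S (z - y))
  have h3 : a * (δ / (a * b + 1) * ‖z - y‖) ≤ δ * ‖S (z - y)‖ := by
    calc a * (δ / (a * b + 1) * ‖z - y‖) ≤ a * (δ / (a * b + 1) * (b * ‖S (z - y)‖)) := by gcongr
      _ = (a * b) / (a * b + 1) * (δ * ‖S (z - y)‖) := by ring
      _ ≤ 1 * (δ * ‖S (z - y)‖) := by
          refine mul_le_mul_of_nonneg_right ?_ (by positivity)
          rw [div_le_one (by positivity)]
          linarith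
      _ = δ * ‖S (z - y)‖ := one_mul _
  linarith

/-- An orthonormal frame at a point, as an equivalence. -/
theorem exists_equiv (hG : IsMetric G) (y : E n) : ∃ S : E n ≃L[ℝ] E n,
    (∀ u, gnorm G y u = ‖S u‖) ∧ |LinearMap.det (S : E n →ₗ[ℝ] E n)| = dens G y := by
  obtain ⟨S, hS, hd, h0⟩ := Core.Chord.exists_frame hG y
  refine ⟨(S.equivOfDetNeZero h0).toContinuousLinearEquiv, fun u => ?_, ?_⟩
  · rw [gnorm, ← hS, real_inner_self_eq_norm_sq, Real.sqrt_sq (norm_nonneg _)]
    rfl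
  · rw [← hd]
    congr 2

end

end Vale.Agent.P219.CH.Full.Density
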