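import Vale.Agent.P219.CH.Full.Statements
import Vale.Agent.P219.CH.Full.Tools
import Vale.Agent.P219.CH.Core.Field.Surf

/-!
P219: the normal measure of a limit as a Euclidean vector measure `ξ π` over the base points,
and the derivative identity it satisfies.
-/

namespace Vale.Agent.P219.CH.Full.Density

open MeasureTheory ProbabilityTheory Set Filter Topology Metric
open scoped ContDiff RealInnerProductSpace

noncomputable section

variable {n : ℕ} {G : Coeff n}

/-- The Euclidean vector of a unit normal. -/
def vec (G : Coeff n) (p : E n × E n) : E n := (dens G p.1)⁻¹ • sharp G p.1 p.2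

/-- The density of the vector measure with respect to the base measure. -/
def field (G : Coeff n) (μ : Measure (E n × E n)) [IsFiniteMeasure μ] (y : E n) : E n :=
  ∫ N, vec G (y, N) ∂μ.condKernel y

theorem continuous_vec (hG : IsMetric G) : Continuous (vec G) :=
  ((hG.contDiff_dens.continuous.comp continuous_fst).inv₀ fun _ => (hG.dens_pos _).ne').smul
    ((hG.contDiff_sharp.continuous.comp continuous_fst).clm_apply continuous_snd)

variable {μ : Measure (E n × E n)} [IsFiniteMeasure μ]

theorem integrable_vec (hG : IsMetric G) (hu : ∀ᵐ p ∂μ, G p.1 p.2 p.2 = 1) {c : E n → ℝ}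
    (hc : Measurable c) {B : ℝ} (hcB : ∀ x, |c x| ≤ B) {K : Set (E n)} (hK : IsCompact K)
    (hcK : ∀ x, x ∉ K → c x = 0) : Integrable (fun p => c p.1 • vec G p) μ := by
  obtain ⟨C, hC⟩ := (isCompact_unitBundle hG hK).exists_bound_of_continuousOn
    (continuous_vec hG).continuousOn
  refine Integrable.of_bound ((hc.comp measurable_fst).smul
    (continuous_vec hG).measurable).aestronglyMeasurable (B * max C 0) ?_
  have hB : 0 ≤ B := (abs_nonneg _).trans (hcB 0)
  filter_upwards [hu] with p hp
  rw [norm_smul, Real.norm_eq_abs]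
  by_cases h : p.1 ∈ K
  · exact mul_le_mul (hcB _) ((hC p ⟨h, hp⟩).trans (le_max_left _ _)) (norm_nonneg _) hB
  · rw [hcK p.1 h]
    simpa using mul_nonneg hB (le_max_right C 0)

theorem locallyIntegrable_field (hG : IsMetric G) (hu : ∀ᵐ p ∂μ, G p.1 p.2 p.2 = 1) :
    LocallyIntegrable (field G μ) μ.fst := by
  rw [locallyIntegrable_iff]
  intro K hK
  have hc : Measurable (K.indicator fun _ => (1 : ℝ)) :=
    measurable_const.indicator hK.measurableSet
  have hB : ∀ x, |K.indicator (fun _ => (1 : ℝ)) x| ≤ 1 := fun x => by
    by_cases h : x ∈ K <;> simp [h]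
  have h := (integrable_vec hG hu hc hB hK fun x hx => by simp [hx]).integral_condKernel
  have h' : Integrable (K.indicator (field G μ)) μ.fst := by
    refine h.congr (Eventually.of_forall fun y => ?_)
    show ∫ N, K.indicator (fun _ => (1 : ℝ)) y • vec G (y, N) ∂μ.condKernel y = _
    rw [integral_smul]
    by_cases hy : y ∈ K <;> simp [hy, field]
  exact (integrable_indicator_iff hK.measurableSet).1 h'

/-- For almost every base point the kernel lives on the unit sphere there. -/
theorem ae_unit (hG : IsMetric G) (hu : ∀ᵐ p ∂μ, G p.1 p.2 p.2 = 1) :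
    ∀ᵐ y ∂μ.fst, ∀ᵐ N ∂μ.condKernel y, G y N N = 1 := by
  have hc : Continuous fun p : E n × E n => G p.1 p.2 p.2 :=
    ((hG.smooth.continuous.comp continuous_fst).clm_apply continuous_snd).clm_apply continuous_snd
  have hm : MeasurableSet {p : E n × E n | G p.1 p.2 p.2 = 1} :=
    (isClosed_eq hc continuous_const).measurableSet
  rw [← μ.disintegrate μ.condKernel] at hu
  exact (Measure.ae_compProd_iff hm).1 hu

/-- The normals have length at most one. -/
theorem inner_field_le (hG : IsMetric G) {y : E n} (hy : ∀ᵐ N ∂μ.condKernel y, G y N N = 1)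
    (w : E n) : dens G y * ⟪field G μ y, w⟫ ≤ gnorm G y w := by
  have hd := hG.dens_pos y
  have hint : Integrable (fun N => vec G (y, N)) (μ.condKernel y) := by
    obtain ⟨C, hC⟩ := (isCompact_unitBundle hG (isCompact_singleton (x := y))).exists_bound_of_continuousOn
      (continuous_vec hG).continuousOn
    refine Integrable.of_bound ((continuous_vec hG).comp
      (continuous_const.prodMk continuous_id)).aestronglyMeasurable C ?_
    filter_upwards [hy] with N hN using hC (y, N) ⟨rfl, hN⟩
  rw [field, real_inner_comm, ← integral_inner hint, ← integral_const_mul]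
  calc ∫ N, dens G y * ⟪w, vec G (y, N)⟫ ∂μ.condKernel y
      ≤ ∫ _N, gnorm G y w ∂μ.condKernel y := by
        refine integral_mono_ae ((hint.const_inner w).const_mul _) (integrable_const _) ?_
        filter_upwards [hy] with N hN
        have e : dens G y * ⟪w, vec G (y, N)⟫ = G y N w := by
          rw [real_inner_comm, vec, real_inner_smul_left, inner_sharp, ← mul_assoc,
            mul_inv_cancel₀ hd.ne', one_mul]
        have h := hG.cauchy y N w
        have h1 : gnorm G y N = 1 := by rw [gnorm, hN, Real.sqrt_one]
        rw [h1, one_mul] at h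
        rw [e]
        exact (le_abs_self _).trans h
    _ = gnorm G y w := by simp

/-- The derivative identity. -/
theorem identity (hflux : FluxStmt) (hG : IsMetric G) {f : ℕ → E n → ℝ} (hf : ∀ k, Cls (f k))
    (P : Pre G f) {φ : E n → ℝ} (hφ : ContDiff ℝ 1 φ) (hc : HasCompactSupport φ) (w : E n) :
    ∫ x, P.g x * fderiv ℝ φ x w = ∫ x, φ x * ⟪field G P.μ x, w⟫ ∂P.μ.fst := by
  set Z : E n → E n := fun x => ((dens G x)⁻¹ * φ x) • w with hZ
  have hdinv : ContDiff ℝ 1 fun x => (dens G x)⁻¹ :=
    (hG.contDiff_dens.of_le (by exact_mod_cast le_top)).inv fun x => (hG.dens_pos x).ne'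
  have hZd : ContDiff ℝ 1 Z := (hdinv.mul hφ).smul contDiff_const
  have hZc : HasCompactSupport Z := by
    refine HasCompactSupport.intro hc.isCompact fun x hx => ?_
    simp [hZ, image_eq_zero_of_notMem_tsupport hx]
  have hdiv : ∀ x, dens G x * divg G Z x = fderiv ℝ φ x w := by
    intro x
    rw [Core.Field.dens_mul_divg hG hZd]
    have e : ∀ i, (fun z => dens G z * Z z i) = fun z => w i • φ z := fun i => funext fun z => by
      simp only [hZ, PiLp.smul_apply, smul_eq_mul]
      rw [mul_assoc, ← mul_assoc (dens G z), mul_inv_cancel₀ (hG.dens_pos z).ne', one_mul, mul_comm]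
    simp only [e, fderiv_const_mul (hφ.differentiable one_ne_zero x), smul_apply, smul_eq_mul]
    rw [← Core.Field.sum_mul_coord (fderiv ℝ φ x) w]
    exact Finset.sum_congr rfl fun i _ => mul_comm _ _
  have hcont : Continuous fun p : E n × E n => φ p.1 • vec G p :=
    (hφ.continuous.comp continuous_fst).smul (continuous_vec hG)
  obtain ⟨B, hB⟩ := hφ.continuous.bounded_above_of_compact_support hc
  have hint : Integrable (fun p : E n × E n => φ p.1 • vec G p) P.μ :=
    integrable_vec hG P.unit hφ.continuous.measurable hB hc.isCompact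
      fun x hx => image_eq_zero_of_notMem_tsupport hx
  have hint' : Integrable (fun y => φ y • field G P.μ y) P.μ.fst := by
    refine hint.integral_condKernel.congr (Eventually.of_forall fun y => ?_)
    show ∫ N, φ y • vec G (y, N) ∂P.μ.condKernel y = _
    rw [integral_smul]
    rfl
  calc ∫ x, P.g x * fderiv ℝ φ x w = ∫ x, P.g x * divg G Z x ∂vol G := by
        rw [Core.Field.integral_vol hG]
        exact integral_congr_ae (Eventually.of_forall fun x => by
          show P.g x * fderiv ℝ φ x w = dens G x * (P.g x * divg G Z x)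
          rw [← hdiv x]; ring)
    _ = ∫ p, G p.1 (Z p.1) p.2 ∂P.μ := hflux n G hG f hf P Z hZd hZc
    _ = ∫ p, ⟪w, φ p.1 • vec G p⟫ ∂P.μ := by
        refine integral_congr_ae (Eventually.of_forall fun p => ?_)
        show G p.1 (Z p.1) p.2 = _
        simp only [hZ, vec, smul_smul, map_smul, smul_apply, smul_eq_mul]
        rw [real_inner_smul_right, real_inner_comm (sharp G p.1 p.2) w, inner_sharp, hG.symm p.1 w]
        ring
    _ = ⟪w, ∫ p, φ p.1 • vec G p ∂P.μ⟫ := integral_inner hint w
    _ = ⟪w, ∫ y, φ y • field G P.μ y ∂P.μ.fst⟫ := by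
        rw [← Measure.integral_condKernel hint]
        simp only [integral_smul, field]
    _ = ∫ y, φ y * ⟪field G P.μ y, w⟫ ∂P.μ.fst := by
        rw [← integral_inner hint']
        refine integral_congr_ae (Eventually.of_forall fun y => ?_)
        show ⟪w, φ y • field G P.μ y⟫ = _
        rw [real_inner_smul_right, real_inner_comm]

end

end Vale.Agent.P219.CH.Full.Density
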